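import Vale.Agent.P110.Window.Wave

/-!
P110: two disjoint linear windows of a nearly flat polynomial are never equal up to sign or
reversal.
-/

namespace Vale.Agent.P110.Window

open Finset Complex
open scoped ComplexConjugate

instance : Fact ((0 : ℝ) < 8) := ⟨by norm_num⟩

/-- The periodised tent with centre `c` and radius `r`. -/
noncomputable def tent (c r x : ℝ) : ℝ := max 0 (1 - ‖((x - c : ℝ) : AddCircle (8 : ℝ))‖ / r)

theorem tent_nonneg (c r x : ℝ) : 0 ≤ tent c r x := le_max_left _ _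

theorem tent_le_one (c : ℝ) {r : ℝ} (hr : 0 < r) (x : ℝ) : tent c r x ≤ 1 :=
  max_le zero_le_one (by
    have : 0 ≤ ‖((x - c : ℝ) : AddCircle (8 : ℝ))‖ / r := by positivity
    linarith)

theorem tent_shift (c d r x : ℝ) : tent c r (x - d) = tent (c + d) r x := by
  simp only [tent, show x - d - c = x - (c + d) by ring]

theorem tent_eq {c r x : ℝ} (h : |x - c| ≤ 4) : tent c r x = max 0 (1 - |x - c| / r) := by
  rw [tent, (AddCircle.norm_coe_eq_abs_iff (8 : ℝ) (by norm_num)).2]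
  rw [show |(8 : ℝ)| / 2 = 4 by norm_num]
  exact h

theorem tent_eq_zero {c r x : ℝ} (hr : 0 < r) (h4 : |x - c| ≤ 4) (h : r ≤ |x - c|) :
    tent c r x = 0 := by
  rw [tent_eq h4, max_eq_left]
  rw [sub_nonpos, one_le_div hr]
  exact h

/-- An exponential sum. -/
noncomputable def expSum {n : ℕ} (a : Fin n → ℂ) (lam : Fin n → ℝ) (x : ℝ) : ℂ :=
  ∑ m, a m * exp (I * (lam m * x : ℝ))

theorem exists_approx (c : ℝ) {r : ℝ} (_hr : 0 < r) {ε : ℝ} (hε : 0 < ε) :
    ∃ (n : ℕ) (a : Fin n → ℂ) (lam : Fin n → ℝ),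
      ∀ x : ℝ, ‖(tent c r x : ℂ) - expSum a lam x‖ ≤ ε := by
  set F : C(AddCircle (8 : ℝ), ℂ) :=
    ⟨fun x => ((max 0 (1 - ‖x - (c : AddCircle (8 : ℝ))‖ / r) : ℝ) : ℂ), by fun_prop⟩ with hF
  have hcl : F ∈ (Submodule.span ℂ (Set.range (@fourier (8 : ℝ)))).topologicalClosure := by
    rw [span_fourier_closure_eq_top]; exact Submodule.mem_top
  rw [← SetLike.mem_coe, Submodule.topologicalClosure_coe, Metric.mem_closure_iff] at hcl
  obtain ⟨P, hP, hFP⟩ := hcl ε hε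
  obtain ⟨n, a, G, hGP⟩ := Submodule.mem_span_set'.1 hP
  choose j hj using fun i => (G i).2
  refine ⟨n, a, fun i => 2 * Real.pi * (j i) / 8, fun x => ?_⟩
  have h1 := (ContinuousMap.dist_apply_le_dist (f := F) (g := P) (x : AddCircle (8 : ℝ))).trans hFP.le
  rw [dist_eq_norm, ← hGP] at h1
  refine le_trans (le_of_eq ?_) h1
  congr 1
  simp only [hF, ContinuousMap.coe_mk, tent, ← AddCircle.coe_sub, expSum, ContinuousMap.coe_sum,
    ContinuousMap.coe_smul, Finset.sum_apply, Pi.smul_apply, smul_eq_mul]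
  congr 1
  refine sum_congr rfl fun i _ => ?_
  rw [← hj i, fourier_coe_apply]
  congr 2
  push_cast
  ring

/-- The polynomial weighted by a profile on `[0, 1]`. -/
noncomputable def wpol (w : ℝ → ℂ) (h : ℕ → ℝ) (N : ℕ) (z : ℂ) : ℂ :=
  ∑ k ∈ range N, w ((k : ℝ) / N) * h k * z ^ k

theorem wpol_expSum {n : ℕ} (a : Fin n → ℂ) (lam : Fin n → ℝ) (h : ℕ → ℝ) (N : ℕ) (z : ℂ) :
    wpol (expSum a lam) h N z = ∑ m, a m * pol h N (z * exp (I * (lam m / N : ℝ))) := by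
  simp only [wpol, expSum, pol, mul_sum, sum_mul]
  rw [sum_comm]
  refine sum_congr rfl fun m _ => sum_congr rfl fun k _ => ?_
  rw [mul_pow, ← exp_nat_mul]
  push_cast
  ring_nf

theorem orth {ζ : ℂ} {M : ℕ} (hζ : IsPrimitiveRoot ζ M) (hM : 0 < M) {i j : ℕ}
    (hi : i < M) (hj : j < M) :
    ∑ s ∈ range M, (ζ ^ i) ^ s * conj ((ζ ^ j) ^ s) = if i = j then (M : ℂ) else 0 := by
  have hn : ‖ζ‖ = 1 := hζ.norm'_eq_one hM.ne'
  have hterm : ∀ s : ℕ, (ζ ^ i) ^ s * conj ((ζ ^ j) ^ s) = (ζ ^ i / ζ ^ j) ^ s := by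
    intro s
    rw [← Complex.inv_eq_conj (by simp [norm_pow, hn]), div_pow, div_eq_mul_inv]
  simp only [hterm]
  have hne : ζ ^ j ≠ 0 := pow_ne_zero _ (hζ.ne_zero hM.ne')
  split_ifs with hij
  · subst hij; simp [hne]
  · have hx : ζ ^ i / ζ ^ j ≠ 1 := fun h => hij (hζ.pow_inj hi hj ((div_eq_one_iff_eq hne).1 h))
    rw [geom_sum_eq hx, div_pow, ← pow_mul, ← pow_mul, mul_comm i, mul_comm j, pow_mul, pow_mul,
      hζ.pow_eq_one]
    simp

theorem parseval {ζ : ℂ} {N : ℕ} (hζ : IsPrimitiveRoot ζ N) (hN : 0 < N) (c : ℕ → ℂ) :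
    ∑ s ∈ range N, ‖∑ i ∈ range N, c i * (ζ ^ s) ^ i‖ ^ 2 = N * ∑ i ∈ range N, ‖c i‖ ^ 2 := by
  apply ofReal_injective
  push_cast
  calc ∑ s ∈ range N, (‖∑ i ∈ range N, c i * (ζ ^ s) ^ i‖ : ℂ) ^ 2
      = ∑ s ∈ range N, ∑ i ∈ range N, ∑ j ∈ range N,
          c i * conj (c j) * ((ζ ^ i) ^ s * conj ((ζ ^ j) ^ s)) := by
        refine sum_congr rfl fun s _ => ?_
        rw [← Complex.mul_conj', map_sum, sum_mul_sum]
        refine sum_congr rfl fun i _ => sum_congr rfl fun j _ => ?_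
        rw [map_mul, ← pow_mul, ← pow_mul, ← pow_mul, ← pow_mul, mul_comm s i, mul_comm s j]
        ring
    _ = ∑ i ∈ range N, ∑ j ∈ range N, c i * conj (c j) * (if i = j then (N : ℂ) else 0) := by
        rw [sum_comm]
        refine sum_congr rfl fun i hi => ?_
        rw [sum_comm]
        refine sum_congr rfl fun j hj => ?_
        rw [← mul_sum, orth hζ hN (mem_range.1 hi) (mem_range.1 hj)]
    _ = _ := by
        rw [mul_sum]
        refine sum_congr rfl fun i hi => ?_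
        simp [mem_range.1 hi, ← Complex.mul_conj']
        ring

/-- The window `[a, a + l)` carries the weights `tent c r` when the tent lies inside it. -/
theorem wpol_window {c r : ℝ} (hr : 0 < r) (h : ℕ → ℝ) {N a l : ℕ} (hN : 0 < N) (hal : a + l ≤ N)
    (hc0 : (a : ℝ) / N + r ≤ c) (hc1 : c ≤ ((a + l : ℕ) : ℝ) / N - r) (z : ℂ) :
    wpol (fun x => (tent c r x : ℂ)) h N z =
      ∑ i ∈ range l, (tent c r (((a + i : ℕ) : ℝ) / N) : ℂ) * h (a + i) * z ^ (a + i) := by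
  have hNr : (0 : ℝ) < N := Nat.cast_pos.2 hN
  rw [wpol]
  refine (sum_subset (s₁ := (range l).map (addLeftEmbedding a)) ?_ ?_).symm.trans (sum_map _ _ _)
  · intro k hk
    obtain ⟨i, hi, rfl⟩ := mem_map.1 hk
    have := mem_range.1 hi
    simp only [addLeftEmbedding_apply, mem_range]
    omega
  · intro k hk hk'
    have hkN := mem_range.1 hk
    have hk1 : (k : ℝ) / N ≤ 1 := (div_le_one hNr).2 (Nat.cast_le.2 hkN.le)
    have hk0 : 0 ≤ (k : ℝ) / N := by positivity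
    have ha0 : 0 ≤ (a : ℝ) / N := by positivity
    have hal1 : ((a + l : ℕ) : ℝ) / N ≤ 1 := (div_le_one hNr).2 (Nat.cast_le.2 hal)
    have : tent c r ((k : ℝ) / N) = 0 := by
      refine tent_eq_zero hr (abs_le.2 ⟨by linarith, by linarith⟩) ?_
      rcases lt_or_ge k a with hka | hka
      · have : (k : ℝ) / N ≤ (a : ℝ) / N :=
          div_le_div_of_nonneg_right (Nat.cast_le.2 hka.le) hNr.le
        exact le_trans (by linarith) (neg_le_abs _)
      · have hle : a + l ≤ k := by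
          by_contra hlt
          exact hk' (mem_map.2 ⟨k - a, mem_range.2 (by omega), by
            simp only [addLeftEmbedding_apply]; omega⟩)
        have : ((a + l : ℕ) : ℝ) / N ≤ (k : ℝ) / N :=
          div_le_div_of_nonneg_right (Nat.cast_le.2 hle) hNr.le
        exact le_trans (by linarith) (le_abs_self _)
    simp [this]

theorem main_term {ε N s X1 X2 P W1 W2 : ℝ} (hε : 0 < ε) (hε1 : ε ≤ 1) (hs : s * s = N)
    (hs0 : 0 ≤ s) (hX10 : 0 ≤ X1) (hX20 : 0 ≤ X2) (hP0 : 0 ≤ P) (hW20 : 0 ≤ W2)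
    (hww : X1 * X2 ≤ 2 * ε) (hX1 : X1 ≤ 2) (hX2 : X2 ≤ 2) (hP : P ≤ 2 * s)
    (c1 : W1 ≤ X1 * P + ε * s) (c2 : W2 ≤ X2 * P + ε * s) :
    W1 * W2 ≤ 17 * ε * N ∧ W1 ≤ 5 * s ∧ W2 ≤ 5 * s := by
  have hes : 0 ≤ ε * s := mul_nonneg hε.le hs0
  have a1 : X1 * P ≤ 2 * (2 * s) := mul_le_mul hX1 hP hP0 two_pos.le
  have a2 : X2 * P ≤ 2 * (2 * s) := mul_le_mul hX2 hP hP0 two_pos.le
  have a3 : ε * s ≤ s := mul_le_of_le_one_left hs0 hε1
  refine ⟨?_, by linarith, by linarith⟩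
  refine (mul_le_mul c1 c2 hW20 (by positivity)).trans ?_
  have hPs : P * P ≤ 4 * N := by
    have := mul_le_mul hP hP hP0 (by linarith)
    linarith [show 2 * s * (2 * s) = 4 * (s * s) by ring]
  have h7 : X1 * X2 * (P * P) ≤ 2 * ε * (4 * N) :=
    mul_le_mul hww hPs (mul_nonneg hP0 hP0) (by positivity)
  have h5 := mul_le_mul_of_nonneg_right a1 hes
  have h6 := mul_le_mul_of_nonneg_right a2 hes
  have h8 := mul_le_mul_of_nonneg_left a3 hes
  have k1 : 2 * (2 * s) * (ε * s) = 4 * ε * N := by rw [← hs]; ring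
  have k2 : ε * s * s = ε * N := by rw [← hs]; ring
  have k3 : (X1 * P + ε * s) * (X2 * P + ε * s) =
      X1 * X2 * (P * P) + X1 * P * (ε * s) + X2 * P * (ε * s) + ε * s * (ε * s) := by ring
  linarith

theorem cross_term {ε N s A W1 W2 e1 e2 : ℝ} (hε : 0 < ε) (hs : s * s = N) (hs0 : 0 ≤ s)
    (hA : 0 ≤ A) (hW1 : 0 ≤ W1) (hW2 : 0 ≤ W2) (he1 : 0 ≤ e1) (he2 : 0 ≤ e2)
    (g1 : A ≤ W1 + e1) (g2 : A ≤ W2 + e2) (hmain : W1 * W2 ≤ 17 * ε * N)
    (d1 : W1 ≤ 5 * s) (d2 : W2 ≤ 5 * s) :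
    A ^ 2 ≤ 28 * ε * N + (5 / ε + 1) * (e1 ^ 2 + e2 ^ 2) := by
  have amgm : ∀ e : ℝ, 5 * s * e ≤ 5 * ε * N + 5 / ε * e ^ 2 := fun e => by
    rw [show 5 * ε * (N : ℝ) + 5 / ε * e ^ 2 = 5 / ε * ((ε * s) ^ 2 + e ^ 2) by
      rw [mul_pow, sq s, hs]; field_simp]
    rw [show 5 * s * e = 5 / ε * (ε * s * e) by field_simp]
    refine mul_le_mul_of_nonneg_left ?_ (by positivity)
    nlinarith [sq_nonneg (ε * s - e), sq_nonneg (ε * s + e)]
  have h1 : A ^ 2 ≤ (W1 + e1) * (W2 + e2) := by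
    rw [sq]; exact mul_le_mul g1 g2 hA (by positivity)
  have h2 := mul_le_mul_of_nonneg_right d1 he2
  have h3 := mul_le_mul_of_nonneg_right d2 he1
  have h4 := two_mul_le_add_sq e1 e2
  have h5 := mul_nonneg he1 he2
  have h6 := amgm e1
  have h7 := amgm e2
  have : 0 ≤ ε * N := mul_nonneg hε.le (hs ▸ mul_self_nonneg s)
  linarith [show (W1 + e1) * (W2 + e2) = W1 * W2 + W1 * e2 + W2 * e1 + e1 * e2 by ring,
    show (5 / ε + 1) * (e1 ^ 2 + e2 ^ 2) = 5 / ε * e1 ^ 2 + 5 / ε * e2 ^ 2 + (e1 ^ 2 + e2 ^ 2) by ring]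

/-- The core estimate: two disjoint tents with weighted polynomials of equal modulus. -/
theorem spectra_disjoint {r : ℝ} (hr : 0 < r) {n : ℕ} (a : Fin n → ℂ) (lam : Fin n → ℝ)
    {c : ℝ} {ε : ℝ} (hε : 0 < ε) (hε1 : ε ≤ 1)
    (happ : ∀ x : ℝ, ‖(tent c r x : ℂ) - expSum a lam x‖ ≤ ε) :
    ∃ η₀ : ℝ, 0 < η₀ ∧ ∀ (h : ℕ → ℝ) (N : ℕ), 0 < N → (∀ k < N, |h k| = 1) → Flat h N η₀ →
      ∀ d : ℝ, (∀ t ∈ Set.Icc (0 : ℝ) 1, tent c r t = 0 ∨ tent c r (t - d) = 0) →
        (∀ z : ℂ, ‖z‖ = 1 → ‖wpol (fun x => (tent c r x : ℂ)) h N z‖ =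
          ‖wpol (fun x => (tent c r (x - d) : ℂ)) h N z‖) →
        ∑ k ∈ range N, tent c r ((k : ℝ) / N) ^ 2 ≤ 40 * ε * N := by
  set B : ℝ := ∑ m, ‖a m‖ + 1
  set Λ : ℝ := ∑ m, |lam m|
  have hB : 0 < B := by positivity
  obtain ⟨η₁, hη₁, hwave⟩ := local_wave (Λ := Λ) (by positivity) (show 0 < ε / B by positivity)
  refine ⟨min η₁ 1, lt_min hη₁ one_pos, fun h N hN hh hfl d hdis heq => ?_⟩
  have hNr : (0 : ℝ) < N := Nat.cast_pos.2 hN
  set s := Real.sqrt N
  have hs : s * s = N := Real.mul_self_sqrt hNr.le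
  have hs0 : 0 ≤ s := Real.sqrt_nonneg _
  have hη0 : (0 : ℝ) ≤ min η₁ 1 := le_min hη₁.le zero_le_one
  obtain ⟨ζ, hζ⟩ : ∃ ζ : ℂ, IsPrimitiveRoot ζ N := ⟨_, Complex.isPrimitiveRoot_exp N hN.ne'⟩
  -- one profile
  have hprof : ∀ d : ℝ, ∃ w : ℝ → ℂ, (∀ x, ‖(tent c r (x - d) : ℂ) - w x‖ ≤ ε) ∧
      ∀ z : ℂ, ‖z‖ = 1 → ∀ t : ℝ, (∀ l, |l| ≤ Λ →
        ‖pol h N (z * exp (I * (l / N : ℝ))) - pol h N z * exp (I * (l * t : ℝ))‖ ≤ ε / B * s) →
          ‖wpol w h N z - w t * pol h N z‖ ≤ ε * s := by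
    intro d
    set a' : Fin n → ℂ := fun m => a m * exp (I * (-(lam m * d) : ℝ))
    have e : ∀ x, expSum a' lam x = expSum a lam (x - d) := fun x => by
      simp only [expSum, a', mul_assoc, ← exp_add]
      refine sum_congr rfl fun m _ => ?_
      congr 2
      push_cast
      ring
    refine ⟨expSum a' lam, fun x => by rw [e]; exact happ _, fun z hz t ht => ?_⟩
    rw [wpol_expSum, expSum, sum_mul, ← sum_sub_distrib]
    refine (norm_sum_le _ _).trans ?_
    calc ∑ m, ‖a' m * pol h N (z * exp (I * (lam m / N : ℝ))) -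
            a' m * exp (I * (lam m * t : ℝ)) * pol h N z‖
        ≤ ∑ m, ‖a m‖ * (ε / B * s) := by
          refine sum_le_sum fun m _ => ?_
          simp only [a']
          rw [show a m * exp (I * (-(lam m * d) : ℝ)) * pol h N (z * exp (I * (lam m / N : ℝ))) -
              a m * exp (I * (-(lam m * d) : ℝ)) * exp (I * (lam m * t : ℝ)) * pol h N z =
            a m * exp (I * (-(lam m * d) : ℝ)) * (pol h N (z * exp (I * (lam m / N : ℝ))) -
              pol h N z * exp (I * (lam m * t : ℝ))) by ring, norm_mul]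
          refine mul_le_mul (le_of_eq ?_) (ht _ (single_le_sum (f := fun m => |lam m|)
            (fun _ _ => abs_nonneg _) (mem_univ m))) (norm_nonneg _) (norm_nonneg _)
          rw [norm_mul, norm_exp]
          simp
      _ = (B - 1) * (ε / B * s) := by rw [← sum_mul]; simp [B]
      _ ≤ B * (ε / B * s) := mul_le_mul_of_nonneg_right (by linarith) (by positivity)
      _ = ε * s := by field_simp
  obtain ⟨w1, hw1, hW1⟩ := hprof 0
  obtain ⟨w2, hw2, hW2⟩ := hprof d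
  simp only [sub_zero] at hw1
  set f1 : ℝ → ℂ := fun x => (tent c r x : ℂ)
  set f2 : ℝ → ℂ := fun x => (tent c r (x - d) : ℂ)
  set e1 : ℕ → ℝ := fun j => ‖wpol f1 h N (ζ ^ j) - wpol w1 h N (ζ ^ j)‖
  set e2 : ℕ → ℝ := fun j => ‖wpol f2 h N (ζ ^ j) - wpol w2 h N (ζ ^ j)‖
  have herr : ∀ (f w : ℝ → ℂ), (∀ x, ‖f x - w x‖ ≤ ε) →
      ∑ j ∈ range N, ‖wpol f h N (ζ ^ j) - wpol w h N (ζ ^ j)‖ ^ 2 ≤ ε ^ 2 * N * N := by
    intro f w hfw
    have e : ∀ j, wpol f h N (ζ ^ j) - wpol w h N (ζ ^ j) =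
        ∑ i ∈ range N, ((f ((i : ℝ) / N) - w ((i : ℝ) / N)) * h i) * (ζ ^ j) ^ i := fun j => by
      simp only [wpol, ← sum_sub_distrib, sub_mul]
    simp only [e]
    rw [parseval hζ hN]
    have h1 : ∑ i ∈ range N, ‖(f ((i : ℝ) / N) - w ((i : ℝ) / N)) * (h i : ℂ)‖ ^ 2 ≤
        ∑ _i ∈ range N, ε ^ 2 := sum_le_sum fun i hi => by
      rw [norm_mul, Complex.norm_real, Real.norm_eq_abs, hh i (mem_range.1 hi), mul_one]
      exact pow_le_pow_left₀ (norm_nonneg _) (hfw _) 2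
    rw [sum_const, card_range, nsmul_eq_mul] at h1
    nlinarith
  have hpt : ∀ j, ‖wpol f1 h N (ζ ^ j)‖ ^ 2 ≤
      28 * ε * N + (5 / ε + 1) * (e1 j ^ 2 + e2 j ^ 2) := by
    intro j
    have hz : ‖ζ ^ j‖ = 1 := by rw [norm_pow, hζ.norm'_eq_one hN.ne', one_pow]
    set z := ζ ^ j
    obtain ⟨t, ht, hloc⟩ := hwave h N hN _ hη0 (min_le_left _ _) hfl z hz
    have a1 := hW1 z hz t hloc
    have a2 := hW2 z hz t hloc
    have hP : ‖pol h N z‖ ≤ 2 * s :=
      (hfl z hz).2.trans (mul_le_mul_of_nonneg_right (by linarith [min_le_right η₁ 1]) hs0)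
    have hb : ∀ (f : ℝ) (w : ℂ), 0 ≤ f → f ≤ 1 → ‖(f : ℂ) - w‖ ≤ ε → ‖w‖ ≤ f + ε :=
      fun f w hf0 hf1 hfw => by
      have := norm_le_norm_add_norm_sub' w (f : ℂ)
      rw [Complex.norm_real, Real.norm_of_nonneg hf0, norm_sub_rev] at this
      linarith
    have b1 := hb _ _ (tent_nonneg c r t) (tent_le_one c hr t) (hw1 t)
    have b2 := hb _ _ (tent_nonneg c r _) (tent_le_one c hr _) (hw2 t)
    have hww : ‖w1 t‖ * ‖w2 t‖ ≤ 2 * ε := by
      have h1 := tent_le_one c hr t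
      have h2 := tent_le_one c hr (t - d)
      rcases hdis t ht with h0 | h0
      · rw [h0] at b1
        nlinarith [norm_nonneg (w1 t), norm_nonneg (w2 t)]
      · rw [h0] at b2
        nlinarith [norm_nonneg (w1 t), norm_nonneg (w2 t)]
    have hA : ∀ w : ℝ → ℂ, ‖wpol w h N z - w t * pol h N z‖ ≤ ε * s →
        ‖wpol w h N z‖ ≤ ‖w t‖ * ‖pol h N z‖ + ε * s := fun w hw => by
      have := norm_le_norm_add_norm_sub' (wpol w h N z) (w t * pol h N z)
      rw [norm_mul] at this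
      linarith
    have c1 := hA w1 a1
    have c2 := hA w2 a2
    set X1 := ‖w1 t‖
    set X2 := ‖w2 t‖
    set P := ‖pol h N z‖
    have hX1 : X1 ≤ 2 := b1.trans (by linarith [tent_le_one c hr t])
    have hX2 : X2 ≤ 2 := b2.trans (by linarith [tent_le_one c hr (t - d)])
    obtain ⟨hmain, d1, d2⟩ := main_term hε hε1 hs hs0 (norm_nonneg _) (norm_nonneg _)
      (norm_nonneg _) (norm_nonneg _) hww hX1 hX2 hP c1 c2
    have g1 := norm_le_norm_add_norm_sub' (wpol f1 h N z) (wpol w1 h N z)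
    have g2 := norm_le_norm_add_norm_sub' (wpol f2 h N z) (wpol w2 h N z)
    rw [← heq z hz] at g2
    exact cross_term hε hs hs0 (norm_nonneg _) (norm_nonneg _) (norm_nonneg _) (norm_nonneg _)
      (norm_nonneg _) g1 g2 hmain d1 d2
  have hsum : ∑ j ∈ range N, ‖wpol f1 h N (ζ ^ j)‖ ^ 2 ≤ 40 * ε * N * N := by
    refine (sum_le_sum fun j _ => hpt j).trans ?_
    rw [sum_add_distrib, sum_const, card_range, nsmul_eq_mul, ← mul_sum, sum_add_distrib]
    have h1 := herr f1 w1 hw1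
    have h2 := herr f2 w2 hw2
    have h3 : (5 / ε + 1) * (ε ^ 2 * N * N + ε ^ 2 * N * N) ≤ 12 * ε * N * N := by
      rw [show (5 / ε + 1) * (ε ^ 2 * N * N + ε ^ 2 * N * N) = (10 + 2 * ε) * (ε * N * N) by
        field_simp; ring]
      have := mul_le_mul_of_nonneg_right (show 10 + 2 * ε ≤ 12 by linarith)
        (show 0 ≤ ε * (N : ℝ) * N by positivity)
      linarith
    have h4 := mul_le_mul_of_nonneg_left (add_le_add h1 h2) (show 0 ≤ 5 / ε + 1 by positivity)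
    linarith
  simp only [wpol] at hsum
  rw [parseval hζ hN] at hsum
  have e : ∀ i ∈ range N, ‖f1 ((i : ℝ) / N) * (h i : ℂ)‖ ^ 2 = tent c r ((i : ℝ) / N) ^ 2 :=
    fun i hi => by
    simp [f1, hh i (mem_range.1 hi), abs_of_nonneg (tent_nonneg _ _ _)]
  rw [sum_congr rfl e, mul_comm (40 * ε * (N : ℝ))] at hsum
  exact le_of_mul_le_mul_left hsum hNr

theorem tent_mass {c r : ℝ} (hr : 0 < r) {N : ℕ} (hN : 0 < N) (hrN : 2 ≤ r * N) (hc0 : r ≤ c)
    (hc1 : c ≤ 1 - r) :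
    r * N / 8 ≤ ∑ k ∈ range N, tent c r ((k : ℝ) / N) ^ 2 := by
  have hNr : (0 : ℝ) < N := Nat.cast_pos.2 hN
  set k0 := ⌈(c - r / 2) * N⌉₊
  set m := ⌊r * N⌋₊
  have hk0 : (k0 : ℝ) < (c - r / 2) * N + 1 := Nat.ceil_lt_add_one (by nlinarith)
  have hk0' : (c - r / 2) * N ≤ k0 := Nat.le_ceil _
  have hm : (m : ℝ) ≤ r * N := Nat.floor_le (by positivity)
  have hm' : r * N < m + 1 := Nat.lt_floor_add_one _
  have hmem : ∀ i, i < m → k0 + i < N ∧ 1 / 2 ≤ tent c r (((k0 + i : ℕ) : ℝ) / N) := by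
    intro i hi
    have hi' : (i : ℝ) + 1 ≤ m := by exact_mod_cast hi
    have hlt : ((k0 + i : ℕ) : ℝ) < (c + r / 2) * N := by push_cast; nlinarith
    refine ⟨?_, ?_⟩
    · have : ((k0 + i : ℕ) : ℝ) < N := hlt.trans_le (by nlinarith)
      exact_mod_cast this
    · have hd : |((k0 + i : ℕ) : ℝ) / N - c| ≤ r / 2 := by
        rw [abs_le, le_sub_iff_add_le, sub_le_iff_le_add, le_div_iff₀ hNr, div_le_iff₀ hNr]
        refine ⟨?_, by linarith⟩
        push_cast
        nlinarith [i.cast_nonneg (α := ℝ)]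
      rw [tent_eq (hd.trans (by linarith))]
      refine le_max_of_le_right ?_
      have : |((k0 + i : ℕ) : ℝ) / N - c| / r ≤ 1 / 2 := by rw [div_le_iff₀ hr]; linarith
      linarith
  calc r * N / 8 ≤ ∑ _i ∈ range m, ((1 : ℝ) / 2) ^ 2 := by
        simp only [sum_const, card_range, nsmul_eq_mul]; nlinarith
    _ ≤ ∑ i ∈ range m, tent c r (((k0 + i : ℕ) : ℝ) / N) ^ 2 :=
        sum_le_sum fun i hi => pow_le_pow_left₀ (by norm_num) (hmem i (mem_range.1 hi)).2 2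
    _ ≤ _ := by
        refine le_trans (le_of_eq
          (sum_map (range m) (addLeftEmbedding k0) fun k => tent c r ((k : ℝ) / N) ^ 2).symm) ?_
        refine sum_le_sum_of_subset_of_nonneg (fun k hk => ?_) fun _ _ _ => sq_nonneg _
        obtain ⟨i, hi, rfl⟩ := mem_map.1 hk
        exact mem_range.2 (hmem i (mem_range.1 hi)).1

/-- Two windows equal up to sign, or up to sign and reversal. -/
def Twin (h : ℕ → ℝ) (a b l : ℕ) : Prop :=
  ∃ s : ℝ, |s| = 1 ∧
    ((∀ i < l, h (b + i) = s * h (a + i)) ∨ (∀ i < l, h (b + i) = s * h (a + (l - 1 - i))))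

/-- No nearly flat Littlewood polynomial has two disjoint twin windows of linear length. -/
theorem no_twin {δ : ℝ} (hδ : 0 < δ) : ∃ η : ℝ, 0 < η ∧ ∃ N₀ : ℕ, ∀ (h : ℕ → ℝ) (N a b l : ℕ),
    N₀ ≤ N → (∀ k < N, |h k| = 1) → δ * N ≤ l → a + l ≤ b → b + l ≤ N → Twin h a b l →
      ¬ Flat h N η := by
  classical
  set r := min δ 1 / 8 with hr_def
  have hr : 0 < r := by positivity
  have hr1 : 8 * r ≤ 1 := by
    have := min_le_right δ (1 : ℝ); rw [hr_def]; linarith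
  have hrδ : 8 * r ≤ δ := by
    have := min_le_left δ (1 : ℝ); rw [hr_def]; linarith
  set ε := r / 512 with hε_def
  have hε : 0 < ε := by positivity
  choose n av lam happ using fun i : ℕ => exists_approx ((i : ℝ) * r) hr hε
  choose η₀ hη₀ hcore using fun i : ℕ =>
    spectra_disjoint hr (av i) (lam i) hε (by linarith : ε ≤ 1) (happ i)
  obtain ⟨I₀, hI₀⟩ := exists_nat_ge (1 / r)
  obtain ⟨i₁, -, hi₁⟩ := exists_min_image (range (I₀ + 1)) η₀ ⟨0, by simp⟩
  obtain ⟨N₀, hN₀⟩ := exists_nat_ge (2 / r)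
  refine ⟨η₀ i₁, hη₀ i₁, N₀ + 1, fun h N a b l hN hh hl hab hbN htwin hfl => ?_⟩
  have hNpos : 0 < N := by omega
  have hNr : (0 : ℝ) < N := Nat.cast_pos.2 hNpos
  have hrN : 2 ≤ r * N := by
    rw [mul_comm, ← div_le_iff₀ hr]
    exact hN₀.trans (Nat.cast_le.2 (by omega))
  have hlN : 8 * r ≤ (l : ℝ) / N := by
    rw [le_div_iff₀ hNr]; nlinarith
  set i := ⌈(a : ℝ) / N / r⌉₊ + 2 with hi_def
  set c := (i : ℝ) * r with hc
  have hc0 : (a : ℝ) / N + 2 * r ≤ c := by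
    have := Nat.le_ceil ((a : ℝ) / N / r)
    rw [div_le_iff₀ hr] at this
    rw [hc, hi_def]; push_cast; linarith
  have hc1 : c ≤ (a : ℝ) / N + 3 * r := by
    have := Nat.ceil_lt_add_one (show 0 ≤ (a : ℝ) / N / r by positivity)
    have h1 := mul_lt_mul_of_pos_right this hr
    rw [add_mul, div_mul_cancel₀ _ hr.ne'] at h1
    rw [hc, hi_def]; push_cast; linarith
  have hal : ((a + l : ℕ) : ℝ) / N = (a : ℝ) / N + (l : ℝ) / N := by push_cast; ring
  have hal1 : ((a + l : ℕ) : ℝ) / N ≤ 1 :=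
    (div_le_one hNr).2 (Nat.cast_le.2 (by omega))
  have hab' : ((a + l : ℕ) : ℝ) / N ≤ (b : ℝ) / N :=
    div_le_div_of_nonneg_right (Nat.cast_le.2 hab) hNr.le
  have hbl : (b : ℝ) / N + (l : ℝ) / N ≤ 1 := by
    rw [← add_div, div_le_one hNr]; exact_mod_cast hbN
  have ha0 : 0 ≤ (a : ℝ) / N := by positivity
  have hiI : i ∈ range (I₀ + 1) := by
    rw [mem_range, Nat.lt_succ_iff]
    have : (i : ℝ) ≤ 1 / r := by rw [le_div_iff₀ hr, ← hc]; linarith
    exact_mod_cast this.trans hI₀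
  have hfl' : Flat h N (η₀ i) := fun z hz => by
    have h1 := hi₁ i hiI
    obtain ⟨x1, x2⟩ := hfl z hz
    have := Real.sqrt_nonneg (N : ℝ)
    constructor <;> nlinarith
  obtain ⟨s, hs, hcase⟩ := htwin
  have hmass := tent_mass hr hNpos hrN (show r ≤ c by linarith) (show c ≤ 1 - r by linarith)
  have hfin : ∀ d : ℝ, 2 * r ≤ d → d ≤ 1 → (∀ z : ℂ, ‖z‖ = 1 →
      ‖wpol (fun x => (tent c r x : ℂ)) h N z‖ =
        ‖wpol (fun x => (tent c r (x - d) : ℂ)) h N z‖) → False := by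
    intro d hd hd1 heq
    have := hcore i h N hNpos hh hfl' d (fun t ht => ?_) heq
    · rw [hε_def] at this
      nlinarith
    · rcases le_or_gt r |t - c| with h1 | h1
      · exact Or.inl (tent_eq_zero hr (abs_le.2 ⟨by linarith [ht.1], by linarith [ht.2]⟩) h1)
      · rw [abs_lt] at h1
        refine Or.inr (tent_eq_zero hr (abs_le.2 ⟨by linarith, by linarith⟩) ?_)
        exact le_trans (by linarith) (neg_le_abs _)
  have hA := fun z => wpol_window (r := r) (c := c) hr h hNpos (show a + l ≤ N by omega)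
    (by linarith) (by linarith) z
  rcases hcase with hcase | hcase
  · refine hfin (((b : ℝ) - a) / N) ?_ ?_ fun z hz => ?_
    · rw [sub_div]; linarith
    · rw [sub_div]; linarith
    rw [hA]
    simp only [tent_shift]
    rw [wpol_window hr h hNpos hbN (by rw [sub_div]; linarith)
      (by push_cast; rw [sub_div, add_div]; linarith)]
    have e : ∀ j ∈ range l, (tent (c + ((b : ℝ) - a) / N) r (((b + j : ℕ) : ℝ) / N) : ℂ) *
        h (b + j) * z ^ (b + j) = ((s : ℂ) * z ^ (b - a)) *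
          ((tent c r (((a + j : ℕ) : ℝ) / N) : ℂ) * h (a + j) * z ^ (a + j)) := by
      intro j hj
      rw [← tent_shift, hcase j (mem_range.1 hj), show b + j = (b - a) + (a + j) by omega, pow_add]
      push_cast [show a ≤ b by omega]
      rw [show (((b : ℝ) - a + (a + j)) / N - ((b : ℝ) - a) / N) = ((a : ℝ) + j) / N by ring]
      ring
    rw [sum_congr rfl e, ← mul_sum, norm_mul, norm_mul, Complex.norm_real, Real.norm_eq_abs, hs,
      norm_pow, hz, one_pow, one_mul, one_mul]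
  · set Sg : ℝ := ((a + b + l - 1 : ℕ) : ℝ) / N with hSg
    have hl0 : 1 ≤ l := by
      by_contra h0
      obtain rfl : l = 0 := by omega
      simp at hlN; linarith
    have hSg : Sg = (a : ℝ) / N + (b : ℝ) / N + (l : ℝ) / N - 1 / N := by
      rw [hSg, Nat.cast_sub (by omega)]; push_cast; ring
    have h1N : 1 / (N : ℝ) ≤ r := by rw [div_le_iff₀ hNr]; linarith
    have h1N0 : 0 ≤ 1 / (N : ℝ) := by positivity
    refine hfin (Sg - c - c) ?_ ?_ fun z hz => ?_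
    · linarith
    · linarith
    rw [hA]
    simp only [tent_shift]
    rw [show c + (Sg - c - c) = Sg - c by ring,
      wpol_window hr h hNpos hbN (by linarith) (by push_cast; rw [add_div]; linarith),
      ← sum_range_reflect (fun i => (tent (Sg - c) r (((b + i : ℕ) : ℝ) / N) : ℂ) *
        h (b + i) * z ^ (b + i)) l]
    have hz0 : z ≠ 0 := norm_pos_iff.1 (by rw [hz]; exact one_pos)
    have e : ∀ j ∈ range l, (tent (Sg - c) r (((b + (l - 1 - j) : ℕ) : ℝ) / N) : ℂ) *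
        h (b + (l - 1 - j)) * z ^ (b + (l - 1 - j)) = ((s : ℂ) * z ^ (a + b + l - 1)) *
          conj ((tent c r (((a + j : ℕ) : ℝ) / N) : ℂ) * h (a + j) * z ^ (a + j)) := by
      intro j hj
      have hj' := mem_range.1 hj
      rw [hcase _ (by omega), show l - 1 - (l - 1 - j) = j by omega]
      have et : tent (Sg - c) r (((b + (l - 1 - j) : ℕ) : ℝ) / N) =
          tent c r (((a + j : ℕ) : ℝ) / N) := by
        have ee : ((b + (l - 1 - j) : ℕ) : ℝ) / N - (Sg - c) =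
            -((((a + j : ℕ) : ℝ) / N) - c) := by
          rw [hSg, Nat.cast_add, Nat.cast_sub (by omega : j ≤ l - 1), Nat.cast_sub hl0]
          push_cast
          ring
        simp only [tent, ee, AddCircle.coe_neg, norm_neg]
      rw [et]
      simp only [map_mul, map_pow, Complex.conj_ofReal, ← Complex.inv_eq_conj hz, inv_pow]
      push_cast
      rw [show a + b + l - 1 = b + (l - 1 - j) + (a + j) by omega, pow_add _ (b + (l - 1 - j))]
      field_simp
    rw [sum_congr rfl e, ← mul_sum, ← map_sum, norm_mul, norm_mul, Complex.norm_conj,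
      Complex.norm_real, Real.norm_eq_abs, hs, norm_pow, hz, one_pow, one_mul, one_mul]

end Vale.Agent.P110.Window
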