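import Mathlib

/-!
P110: a nearly flat polynomial is locally a plane wave on the scale `1 / N`.
-/

namespace Vale.Agent.P110.Window

open Finset Complex Metric
open scoped ComplexConjugate

/-- The polynomial with coefficients `h`. -/
def pol (h : ℕ → ℝ) (N : ℕ) (z : ℂ) : ℂ := ∑ k ∈ range N, (h k : ℂ) * z ^ k

/-- `η`-flatness on the unit circle. -/
def Flat (h : ℕ → ℝ) (N : ℕ) (η : ℝ) : Prop :=
  ∀ z : ℂ, ‖z‖ = 1 → (1 - η) * Real.sqrt N ≤ ‖pol h N z‖ ∧ ‖pol h N z‖ ≤ (1 + η) * Real.sqrt N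

/-- The reversed coefficients. -/
def rev (h : ℕ → ℝ) (N : ℕ) (k : ℕ) : ℝ := h (N - 1 - k)

theorem differentiable_pol (h : ℕ → ℝ) (N : ℕ) : Differentiable ℂ (pol h N) :=
  Differentiable.fun_sum fun k _ => (differentiable_id.pow k).const_mul _

theorem pol_rev (h : ℕ → ℝ) (N : ℕ) {w : ℂ} (hw : w ≠ 0) :
    pol (rev h N) N w = w ^ (N - 1) * pol h N w⁻¹ := by
  rw [pol, pol, ← sum_range_reflect, mul_sum]
  refine sum_congr rfl fun k hk => ?_
  have hk' := mem_range.1 hk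
  rw [rev, show N - 1 - (N - 1 - k) = k by omega, inv_pow,
    show w ^ (N - 1) * ((h k : ℂ) * (w ^ k)⁻¹) = (h k : ℂ) * (w ^ (N - 1) * (w ^ k)⁻¹) by ring,
    pow_sub₀ w hw (by omega : k ≤ N - 1)]

theorem norm_inv_one {z : ℂ} (hz : ‖z‖ = 1) : ‖z⁻¹‖ = 1 := by simp [hz]

theorem pol_conj (h : ℕ → ℝ) (N : ℕ) (z : ℂ) : conj (pol h N z) = pol h N (conj z) := by
  simp [pol, map_sum]

theorem norm_le_of_circle {f : ℂ → ℂ} (hf : Differentiable ℂ f) {C : ℝ}
    (hC : ∀ z : ℂ, ‖z‖ = 1 → ‖f z‖ ≤ C) {w : ℂ} (hw : ‖w‖ ≤ 1) : ‖f w‖ ≤ C := by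
  refine norm_le_of_forall_mem_frontier_norm_le (U := ball (0 : ℂ) 1) isBounded_ball hf.diffContOnCl
    (fun z hz => hC z ?_) ?_
  · rw [frontier_ball _ one_ne_zero, mem_sphere_zero_iff_norm] at hz
    exact hz
  · rw [closure_ball _ one_ne_zero, mem_closedBall_zero_iff]
    exact hw

theorem growth {h : ℕ → ℝ} {N : ℕ} {C : ℝ} (hC : ∀ z : ℂ, ‖z‖ = 1 → ‖pol h N z‖ ≤ C) (w : ℂ) :
    ‖pol h N w‖ ≤ C * max 1 ‖w‖ ^ (N - 1) := by
  rcases le_or_gt ‖w‖ 1 with hw | hw
  · rw [max_eq_left hw, one_pow, mul_one]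
    exact norm_le_of_circle (differentiable_pol h N) hC hw
  rw [max_eq_right hw.le]
  have h0 : w ≠ 0 := norm_pos_iff.1 (lt_trans zero_lt_one hw)
  have h1 := norm_le_of_circle (differentiable_pol (rev h N) N) (C := C) (w := w⁻¹) (fun z hz => by
      rw [pol_rev h N (norm_pos_iff.1 (by rw [hz]; exact one_pos)), norm_mul, norm_pow, hz, one_pow,
        one_mul]
      exact hC _ (norm_inv_one hz))
    (by rw [norm_inv]; exact inv_le_one_of_one_le₀ hw.le)
  rw [pol_rev h N (inv_ne_zero h0), inv_inv, norm_mul, norm_pow, norm_inv, inv_pow] at h1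
  rwa [inv_mul_le_iff₀ (pow_pos (lt_trans zero_lt_one hw) _), mul_comm] at h1

/-- A nearly flat polynomial has no zero within distance about `L / N` of the circle. -/
theorem pol_ne_zero {h : ℕ → ℝ} {N : ℕ} {η L : ℝ} (hN : 0 < N) (hη : 0 ≤ η) (hη1 : η ≤ 1)
    (hfl : Flat h N η) (hL : 3 * η * Real.exp L < 1) {w : ℂ} (hw0 : w ≠ 0)
    (hw : ‖w‖ ^ (N - 1) ≤ Real.exp L) (hw' : Real.exp (-L) ≤ ‖w‖ ^ (N - 1)) :
    pol h N w ≠ 0 := by
  intro hP
  set S : ℂ → ℂ := fun v => pol h N v * pol (rev h N) N v - N * v ^ (N - 1) with hS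
  have hN' : (0 : ℝ) < N := Nat.cast_pos.2 hN
  have hSc : ∀ z : ℂ, ‖z‖ = 1 → ‖S z‖ ≤ 3 * η * N := by
    intro z hz
    have hz0 : z ≠ 0 := norm_pos_iff.1 (by rw [hz]; exact one_pos)
    have e : pol h N z⁻¹ = conj (pol h N z) := by
      rw [pol_conj, Complex.inv_eq_conj hz]
    obtain ⟨h1, h2⟩ := hfl z hz
    have hs := Real.mul_self_sqrt (Nat.cast_nonneg (α := ℝ) N)
    have a1 := mul_le_mul h1 h1 (mul_nonneg (by linarith) (Real.sqrt_nonneg _)) (norm_nonneg _)
    have a2 := mul_le_mul h2 h2 (norm_nonneg _) (mul_nonneg (by linarith) (Real.sqrt_nonneg _))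
    simp only [hS, pol_rev h N hz0, e]
    rw [show pol h N z * (z ^ (N - 1) * conj (pol h N z)) - (N : ℂ) * z ^ (N - 1) =
      z ^ (N - 1) * (pol h N z * conj (pol h N z) - N) by ring, norm_mul, norm_pow, hz, one_pow,
      one_mul, Complex.mul_conj', ← Complex.ofReal_natCast, ← Complex.ofReal_pow,
      ← Complex.ofReal_sub, Complex.norm_real, Real.norm_eq_abs, abs_le]
    constructor <;> nlinarith
  have hSd : Differentiable ℂ S :=
    ((differentiable_pol h N).mul (differentiable_pol _ N)).sub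
      ((differentiable_id.pow _).const_mul _)
  have hsym : S w = w ^ (2 * (N - 1)) * S w⁻¹ := by
    simp only [hS, pol_rev h N hw0, pol_rev h N (inv_ne_zero hw0), inv_inv]
    have e1 : w ^ (2 * (N - 1)) = w ^ (N - 1) * w ^ (N - 1) := by rw [two_mul, pow_add]
    rw [e1, inv_pow]
    field_simp
  have e : ‖S w‖ = N * ‖w‖ ^ (N - 1) := by simp [hS, hP, norm_pow]
  have hpos : 0 < ‖w‖ ^ (N - 1) := pow_pos (norm_pos_iff.2 hw0) _
  rcases le_or_gt ‖w‖ 1 with hle | hgt
  · have h1 := norm_le_of_circle hSd hSc hle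
    rw [e] at h1
    have h2 : 3 * η * N < N * Real.exp (-L) := by
      rw [Real.exp_neg, ← div_eq_mul_inv, lt_div_iff₀ (Real.exp_pos L)]
      nlinarith [mul_lt_mul_of_pos_right hL hN']
    nlinarith [mul_le_mul_of_nonneg_left hw' hN'.le]
  · have h1 := norm_le_of_circle hSd hSc (w := w⁻¹)
      (by rw [norm_inv]; exact inv_le_one_of_one_le₀ hgt.le)
    rw [hsym, norm_mul, norm_pow, two_mul, pow_add, mul_assoc, mul_comm (N : ℝ)] at e
    have h3 := mul_left_cancel₀ hpos.ne' e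
    have h4 := mul_le_mul hw h1 (norm_nonneg _) (Real.exp_pos L).le
    nlinarith [mul_lt_mul_of_pos_right hL hN']

/-- Second-order control of a logarithm on a disc. -/
theorem log_linear {g : ℂ → ℂ} {L : ℝ} (hL : 16 ≤ L) (hg : DifferentiableOn ℂ g (ball 0 L))
    (hg' : DifferentiableOn ℂ (deriv g) (ball 0 L)) (h0 : g 0 = 0)
    (hre : ∀ u ∈ ball (0 : ℂ) L, (g u).re ≤ L + 2) :
    ‖deriv g 0‖ ≤ 48 ∧ ∀ u ∈ ball (0 : ℂ) (L / 4), ‖g u - deriv g 0 * u‖ ≤ 384 * ‖u‖ ^ 2 / L := by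
  have hL0 : 0 < L := by linarith
  have hbc : ∀ u ∈ ball (0 : ℂ) (L / 2), ‖g u‖ ≤ 6 * L := fun u hu => by
    have hu' : ‖u‖ < L / 2 := mem_ball_zero_iff.1 hu
    refine (borelCaratheodory_zero (by linarith : (0 : ℝ) < L + 2) hg (fun v hv => hre v hv) hL0
      (mem_ball_zero_iff.2 (by linarith)) h0).trans ?_
    rw [div_le_iff₀ (by linarith)]
    nlinarith [norm_nonneg u]
  have hd : ∀ u ∈ ball (0 : ℂ) (L / 4), ‖deriv g u‖ ≤ 48 := fun u hu => by
    have hu' : ‖u‖ < L / 4 := mem_ball_zero_iff.1 hu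
    have hsub : closedBall u (L / 8) ⊆ ball 0 L := fun v hv => by
      rw [mem_closedBall, dist_eq_norm] at hv
      rw [mem_ball_zero_iff]
      linarith [norm_le_insert' v u]
    refine (norm_deriv_le_of_forall_mem_sphere_norm_le (C := 6 * L) (by linarith : (0 : ℝ) < L / 8)
      ((hg.mono hsub).diffContOnCl_ball le_rfl) fun v hv => ?_).trans_eq (by field_simp; ring)
    rw [mem_sphere, dist_eq_norm] at hv
    refine hbc v (mem_ball_zero_iff.2 ?_)
    linarith [norm_le_insert' v u]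
  have h00 : (0 : ℂ) ∈ ball (0 : ℂ) (L / 4) := mem_ball_self (by linarith)
  refine ⟨hd 0 h00, fun u hu => ?_⟩
  have hu' : ‖u‖ < L / 4 := mem_ball_zero_iff.1 hu
  have hsub : ball (0 : ℂ) (L / 4) ⊆ ball 0 L := ball_subset_ball (by linarith)
  have hschwarz : ∀ v ∈ ball (0 : ℂ) (L / 4), ‖deriv g v - deriv g 0‖ ≤ 384 / L * ‖v‖ := by
    intro v hv
    have := dist_le_div_mul_dist_of_mapsTo_ball (hg'.mono hsub) (fun x hx => by
      rw [mem_closedBall, dist_eq_norm]
      exact (norm_sub_le _ _).trans (add_le_add (hd x hx) (hd 0 h00))) hv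
    rw [dist_eq_norm, dist_zero_right] at this
    refine this.trans_eq ?_
    field_simp
    ring
  have hmv := (convex_closedBall (0 : ℂ) ‖u‖).norm_image_sub_le_of_norm_hasDerivWithin_le
    (f := fun v => g v - deriv g 0 * v) (f' := fun v => deriv g v - deriv g 0)
    (C := 384 / L * ‖u‖)
    (fun v hv => by
      have hv' : v ∈ ball (0 : ℂ) L := mem_ball_zero_iff.2 (by
        linarith [mem_closedBall_zero_iff.1 hv])
      have hga := (hg.differentiableAt (isOpen_ball.mem_nhds hv')).hasDerivAt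
      exact ((hga.sub ((hasDerivAt_id v).const_mul (deriv g 0))).congr_deriv (by simp)).hasDerivWithinAt)
    (fun v hv => by
      have hv' := mem_closedBall_zero_iff.1 hv
      exact (hschwarz v (mem_ball_zero_iff.2 (lt_of_le_of_lt hv' hu'))).trans
        (mul_le_mul_of_nonneg_left hv' (by positivity)))
    (mem_closedBall_self (norm_nonneg u)) (mem_closedBall_zero_iff.2 le_rfl)
  simp only [h0, mul_zero, sub_zero] at hmv
  refine hmv.trans_eq ?_
  ring

/-- The group delay at `z`: the derivative of the argument, divided by the length. -/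
noncomputable def delay (h : ℕ → ℝ) (N : ℕ) (z : ℂ) : ℝ :=
  (z * deriv (pol h N) z / pol h N z).re / N

theorem delay_eq (h : ℕ → ℝ) (N : ℕ) (z : ℂ) :
    (deriv (fun u : ℂ => pol h N (z * exp (I * u / N))) 0 /
      pol h N (z * exp (I * 0 / N))).im = delay h N z := by
  have e1 : HasDerivAt (fun u : ℂ => z * exp (I * u / N)) (z * (I / N)) 0 := by
    simpa using ((((hasDerivAt_id (0 : ℂ)).const_mul I).div_const (N : ℂ)).cexp).const_mul z
  have e2 : HasDerivAt (pol h N) (deriv (pol h N) z) (z * exp (I * 0 / N)) := by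
    simpa using (differentiable_pol h N z).hasDerivAt
  have h1 : HasDerivAt (fun u : ℂ => pol h N (z * exp (I * u / N)))
      (deriv (pol h N) z * (z * (I / N))) 0 := by
    have h0 := e2.comp (0 : ℂ) e1
    exact h0
  rw [h1.deriv, delay]
  simp only [mul_zero, zero_div, exp_zero, mul_one]
  rw [show deriv (pol h N) z * (z * (I / N)) / pol h N z =
    I * (z * deriv (pol h N) z / pol h N z) / N by ring, Complex.div_natCast_im, Complex.I_mul_im]

theorem delay_close {q : ℂ} {t e Λ ε m d : ℝ} (hqd : q.im = d) (hqt : ‖q - I * t‖ ≤ 4 * e)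
    (hm : m ≤ ε / 4) (hΛ : 0 ≤ Λ) (hε : 0 < ε) (he : e = m / (5 * (Λ + 1))) : |d - t| ≤ ε := by
  have h1 : |(q - I * t).im| ≤ 4 * e := (abs_im_le_norm _).trans hqt
  simp only [sub_im, mul_im, I_re, I_im, ofReal_re, ofReal_im, zero_mul, one_mul, zero_add] at h1
  rw [← hqd]
  refine h1.trans ((mul_le_mul_of_nonneg_left ?_ (by norm_num : (0 : ℝ) ≤ 4)).trans
    (show 4 * (ε / 4) ≤ ε by linarith))
  rw [he, div_le_iff₀ (by positivity)]
  nlinarith

/-- A nearly flat polynomial is locally a plane wave with frequency in `[0, 1]`, close to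
the group delay. -/
theorem local_wave_delay {Λ ε : ℝ} (hΛ : 0 ≤ Λ) (hε : 0 < ε) : ∃ η₀ : ℝ, 0 < η₀ ∧
    ∀ (h : ℕ → ℝ) (N : ℕ), 0 < N → ∀ η : ℝ, 0 ≤ η → η ≤ η₀ → Flat h N η →
      ∀ z : ℂ, ‖z‖ = 1 → ∃ t ∈ Set.Icc (0 : ℝ) 1, |delay h N z - t| ≤ ε ∧ ∀ l : ℝ, |l| ≤ Λ →
        ‖pol h N (z * exp (I * (l / N : ℝ))) - pol h N z * exp (I * (l * t : ℝ))‖ ≤
          ε * Real.sqrt N := by
  set e := min (ε / 4) 1 / (5 * (Λ + 1)) with he
  have hm1 : 0 < min (ε / 4) 1 := lt_min (by linarith) one_pos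
  have he0 : 0 < e := by positivity
  set L := max (max 16 (4 * (Λ + 1))) (384 * (Λ + 1) / e) with hLd
  have hL16 : (16 : ℝ) ≤ L := (le_max_left _ _).trans (le_max_left _ _)
  have hL0 : 0 < L := by linarith
  have hLΛ : 4 * (Λ + 1) ≤ L := (le_max_right _ _).trans (le_max_left _ _)
  have hLe : 384 * (Λ + 1) / L ≤ e := by
    rw [div_le_iff₀ hL0, mul_comm e L, ← div_le_iff₀ he0]
    exact le_max_right _ _
  refine ⟨min (min (1 / 4) (e / 4)) (1 / (4 * Real.exp L)), by positivity,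
    fun h N hN η hη hη₀ hfl z hz => ?_⟩
  have hη4 : η ≤ 1 / 4 := hη₀.trans ((min_le_left _ _).trans (min_le_left _ _))
  have hηe : 4 * η ≤ e := by
    have := hη₀.trans ((min_le_left _ _).trans (min_le_right _ _)); linarith
  have hηL : 3 * η * Real.exp L < 1 := by
    have := hη₀.trans (min_le_right _ _)
    rw [le_div_iff₀ (by positivity)] at this
    nlinarith [Real.exp_pos L]
  have hNr : (0 : ℝ) < N := Nat.cast_pos.2 hN
  set s := Real.sqrt N with hs
  have hs0 : 0 < s := Real.sqrt_pos.2 hNr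
  set φ : ℂ → ℂ := fun u => pol h N (z * exp (I * u / N)) with hφd
  have hφ : Differentiable ℂ φ :=
    (differentiable_pol h N).comp (((differentiable_id.const_mul I).div_const _).cexp.const_mul z)
  have hnorm : ∀ u : ℂ, ‖z * exp (I * u / N)‖ = Real.exp (-u.im / N) := fun u => by
    rw [norm_mul, hz, one_mul, norm_exp]
    simp
  have hpowle : ∀ u : ℂ, Real.exp (-u.im / N) ^ (N - 1) ≤ max 1 (Real.exp (-u.im)) := fun u => by
    rw [← Real.exp_nat_mul, ← Real.exp_zero, ← Real.exp_monotone.map_max, Real.exp_le_exp]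
    have h1 : ((N - 1 : ℕ) : ℝ) ≤ N := Nat.cast_le.2 (Nat.sub_le _ _)
    rcases le_total 0 (-u.im) with hm | hm
    · refine le_max_of_le_right ?_
      rw [← mul_div_assoc, div_le_iff₀ hNr]
      nlinarith
    · exact le_max_of_le_left (mul_nonpos_of_nonneg_of_nonpos (Nat.cast_nonneg _)
        (div_nonpos_of_nonpos_of_nonneg hm hNr.le))
  have hgrowth : ∀ u : ℂ, ‖φ u‖ ≤ (1 + η) * s * max 1 (Real.exp (-u.im)) := fun u => by
    refine (growth (fun v hv => (hfl v hv).2) _).trans (mul_le_mul_of_nonneg_left ?_ (by positivity))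
    rw [hnorm]
    rcases le_total 1 (Real.exp (-u.im / N)) with hm | hm
    · rw [max_eq_right hm]; exact hpowle u
    · rw [max_eq_left hm, one_pow]; exact le_max_left _ _
  have hne : ∀ u ∈ ball (0 : ℂ) L, φ u ≠ 0 := fun u hu => by
    have hu' := (abs_im_le_norm u).trans (mem_ball_zero_iff.1 hu).le
    rw [abs_le] at hu'
    refine pol_ne_zero hN hη (by linarith) hfl hηL (mul_ne_zero (norm_pos_iff.1 (by
      rw [hz]; exact one_pos)) (exp_ne_zero _)) ?_ ?_ <;> rw [hnorm]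
    · exact (hpowle u).trans (max_le (Real.one_le_exp hL0.le) (Real.exp_le_exp.2 (by linarith)))
    · rw [← Real.exp_nat_mul, Real.exp_le_exp]
      have h1 : ((N - 1 : ℕ) : ℝ) ≤ N := Nat.cast_le.2 (Nat.sub_le _ _)
      rw [← mul_div_assoc, le_div_iff₀ hNr]
      nlinarith [Nat.cast_nonneg (α := ℝ) (N - 1)]
  have hψ : DifferentiableOn ℂ (fun u => deriv φ u / φ u) (ball 0 L) :=
    (hφ.differentiableOn.deriv isOpen_ball).div hφ.differentiableOn hne
  obtain ⟨g₀, hg₀⟩ := hψ.isExactOn_ball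
  set g : ℂ → ℂ := fun u => g₀ u - g₀ 0 with hgd
  have hg : ∀ u ∈ ball (0 : ℂ) L, HasDerivAt g (deriv φ u / φ u) u :=
    fun u hu => (hg₀ u hu).sub_const _
  have hgdiff : DifferentiableOn ℂ g (ball 0 L) :=
    fun u hu => (hg u hu).differentiableAt.differentiableWithinAt
  have hg' : DifferentiableOn ℂ (deriv g) (ball 0 L) :=
    hψ.congr fun u hu => (hg u hu).deriv
  have hg0 : g 0 = 0 := by simp [hgd]
  have hexp : ∀ u ∈ ball (0 : ℂ) L, φ u = φ 0 * exp (g u) := by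
    intro u hu
    have hd : ∀ v ∈ ball (0 : ℂ) L, HasDerivAt (fun v => φ v * exp (-g v)) 0 v := fun v hv => by
      refine ((hφ v).hasDerivAt.mul (hg v hv).neg.cexp).congr_deriv ?_
      have := hne v hv
      field_simp
      ring
    have := (convex_ball (0 : ℂ) L).is_const_of_fderivWithin_eq_zero (𝕜 := ℂ)
      (fun v hv => (hd v hv).differentiableAt.differentiableWithinAt) (fun v hv => by
        rw [fderivWithin_of_isOpen isOpen_ball hv]
        ext
        simp [(hd v hv).hasFDerivAt.fderiv]) hu (mem_ball_self hL0)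
    simp only [hg0, neg_zero, exp_zero, mul_one] at this
    rw [← this, mul_assoc, ← exp_add, neg_add_cancel, exp_zero, mul_one]
  have hφ0 : φ 0 = pol h N z := by simp [hφd]
  have hlow : (1 - η) * s ≤ ‖φ 0‖ := by rw [hφ0]; exact (hfl z hz).1
  have hup : ‖φ 0‖ ≤ (1 + η) * s := by rw [hφ0]; exact (hfl z hz).2
  have hp1 : 0 < 1 - η := by linarith
  have hratio : (1 + η) / (1 - η) ≤ Real.exp (4 * η) := by
    refine le_trans ?_ (Real.add_one_le_exp _)
    rw [div_le_iff₀ hp1]; nlinarith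
  -- upper bounds on the real part
  have hre : ∀ u ∈ ball (0 : ℂ) L, (g u).re ≤ 4 * η + max 0 (-u.im) := fun u hu => by
    rw [← Real.exp_le_exp, ← norm_exp, Real.exp_add, Real.exp_monotone.map_max, Real.exp_zero]
    have h1 := hgrowth u
    rw [hexp u hu, norm_mul] at h1
    have h2 : ‖exp (g u)‖ * ((1 - η) * s) ≤ (1 + η) * max 1 (Real.exp (-u.im)) * s := by
      calc ‖exp (g u)‖ * ((1 - η) * s) ≤ ‖exp (g u)‖ * ‖φ 0‖ :=
            mul_le_mul_of_nonneg_left hlow (norm_nonneg _)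
        _ ≤ _ := by linarith
    have h3 : ‖exp (g u)‖ * (1 - η) ≤ (1 + η) * max 1 (Real.exp (-u.im)) :=
      le_of_mul_le_mul_right (by linarith) hs0
    calc ‖exp (g u)‖ ≤ (1 + η) * max 1 (Real.exp (-u.im)) / (1 - η) := by
          rwa [le_div_iff₀ hp1]
      _ = (1 + η) / (1 - η) * max 1 (Real.exp (-u.im)) := by ring
      _ ≤ _ := mul_le_mul_of_nonneg_right hratio (by positivity)
  obtain ⟨hq48, hlin⟩ := log_linear hL16 hgdiff hg' hg0 fun u hu => by
    refine (hre u hu).trans ?_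
    have := abs_le.1 ((abs_im_le_norm u).trans (mem_ball_zero_iff.1 hu).le)
    rcases max_cases 0 (-u.im) with ⟨he, -⟩ | ⟨he, -⟩ <;> linarith
  set q := deriv g 0 with hq
  -- the frequency
  have hone : ∀ u : ℂ, ‖u‖ = 1 → u ∈ ball (0 : ℂ) L ∧ ‖g u - q * u‖ ≤ e := fun u hu => by
    refine ⟨mem_ball_zero_iff.2 (by linarith), (hlin u (mem_ball_zero_iff.2 (by linarith))).trans ?_⟩
    rw [hu, one_pow, mul_one]
    exact (div_le_div_of_nonneg_right (by nlinarith) hL0.le).trans hLe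
  have b1 : |q.re| ≤ 2 * e := by
    obtain ⟨hb, h1⟩ := hone 1 (by simp)
    have h2 := (abs_re_le_norm _).trans h1
    simp only [mul_one, sub_re] at h2
    have h3 : |(g 1).re| ≤ 4 * η := by
      refine abs_le.2 ⟨?_, by simpa using hre 1 hb⟩
      have hzz : ‖z * exp (I * 1 / N)‖ = 1 := by rw [hnorm]; simp
      have h4 : (1 - η) * s ≤ ‖φ 1‖ := (hfl _ hzz).1
      rw [hexp 1 hb, norm_mul, norm_exp] at h4
      have h5 : (1 - η) ≤ (1 + η) * Real.exp (g 1).re := by
        refine le_of_mul_le_mul_right ?_ hs0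
        calc (1 - η) * s ≤ ‖φ 0‖ * Real.exp (g 1).re := h4
          _ ≤ (1 + η) * s * Real.exp (g 1).re :=
              mul_le_mul_of_nonneg_right hup (Real.exp_pos _).le
          _ = _ := by ring
      rw [neg_le, ← Real.exp_le_exp, Real.exp_neg]
      refine le_trans ?_ hratio
      rw [inv_le_iff_one_le_mul₀ (Real.exp_pos _), div_mul_eq_mul_div, le_div_iff₀ hp1, one_mul]
      exact h5
    rw [abs_le] at h2 h3 ⊢
    constructor <;> linarith
  have b2 : -(2 * e) ≤ q.im := by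
    obtain ⟨hb, h1⟩ := hone I (by simp)
    have h2 := abs_le.1 ((abs_re_le_norm _).trans h1)
    simp only [sub_re, mul_re, I_re, I_im, mul_zero, mul_one, zero_sub] at h2
    have h3 := hre I hb
    simp only [I_im, max_eq_left (by norm_num : (-1 : ℝ) ≤ 0)] at h3
    linarith [h2.1]
  have b3 : q.im ≤ 1 + 2 * e := by
    obtain ⟨hb, h1⟩ := hone (-I) (by simp)
    have h2 := abs_le.1 ((abs_re_le_norm _).trans h1)
    simp only [sub_re, mul_re, neg_re, neg_im, I_re, I_im, neg_zero, mul_zero, mul_neg, mul_one,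
      zero_sub, neg_neg] at h2
    have h3 := hre (-I) hb
    simp only [neg_im, I_im, neg_neg, max_eq_right zero_le_one] at h3
    linarith [h2.1]
  set t := max 0 (min q.im 1) with htd
  have htI : t ∈ Set.Icc (0 : ℝ) 1 := ⟨le_max_left _ _, max_le zero_le_one (min_le_right _ _)⟩
  have hqt : ‖q - I * t‖ ≤ 4 * e := by
    refine (norm_le_abs_re_add_abs_im _).trans ?_
    simp only [sub_re, sub_im, mul_re, mul_im, I_re, I_im, ofReal_re, ofReal_im, zero_mul, mul_zero,
      one_mul, sub_zero, zero_add, sub_self]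
    have : |q.im - t| ≤ 2 * e := by
      rw [abs_le, htd]
      rcases le_total q.im 1 with ha | ha <;> rcases le_total 0 q.im with hb | hb <;>
        simp [ha, hb] <;> first | linarith | (constructor <;> linarith)
    linarith
  have hqe : |delay h N z - t| ≤ ε := by
    refine delay_close (hqd := ?_) (hqt := hqt) (hm := min_le_left (ε / 4) 1) hΛ hε he
    rw [hq, (hg 0 (mem_ball_self hL0)).deriv, hφd]
    exact delay_eq h N z
  refine ⟨t, htI, hqe, fun l hl => ?_⟩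
  have hlnorm : ‖(l : ℂ)‖ ≤ Λ := by rwa [Complex.norm_real, Real.norm_eq_abs]
  have hlb : (l : ℂ) ∈ ball (0 : ℂ) L := mem_ball_zero_iff.2 (by linarith)
  have h1 := hlin (l : ℂ) (mem_ball_zero_iff.2 (by linarith))
  have hbnd : ‖g (l : ℂ) - I * (l * t : ℝ)‖ ≤ min (ε / 4) 1 := by
    calc ‖g (l : ℂ) - I * (l * t : ℝ)‖ = ‖(g (l : ℂ) - q * l) + (q - I * t) * l‖ := by
          congr 1; push_cast; ring
      _ ≤ 384 * ‖(l : ℂ)‖ ^ 2 / L + ‖q - I * t‖ * ‖(l : ℂ)‖ :=
          (norm_add_le _ _).trans (add_le_add h1 (norm_mul_le _ _))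
      _ ≤ 384 * (Λ + 1) / L * Λ + 4 * e * Λ := by
          refine add_le_add ?_ (mul_le_mul hqt hlnorm (norm_nonneg _) (by positivity))
          rw [div_mul_eq_mul_div]
          refine div_le_div_of_nonneg_right ?_ hL0.le
          nlinarith [mul_le_mul hlnorm hlnorm (norm_nonneg _) hΛ]
      _ ≤ e * Λ + 4 * e * Λ := add_le_add (mul_le_mul_of_nonneg_right hLe hΛ) le_rfl
      _ ≤ 5 * (Λ + 1) * e := by nlinarith
      _ = _ := by rw [he]; field_simp
  have hmain : pol h N (z * exp (I * (l / N : ℝ))) = φ 0 * exp (g (l : ℂ)) := by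
    rw [← hexp _ hlb, hφd]
    simp only
    push_cast
    rw [mul_div_assoc]
  rw [hmain, ← hφ0, ← mul_sub, norm_mul]
  set θ : ℂ := I * (l * t : ℝ) with hθ
  have hθ1 : ‖exp θ‖ = 1 := by rw [norm_exp, hθ]; simp
  rw [show exp (g (l : ℂ)) = exp θ * exp (g (l : ℂ) - θ) by rw [← exp_add]; congr 1; ring,
    ← mul_sub_one, norm_mul, hθ1, one_mul]
  calc ‖φ 0‖ * ‖exp (g (l : ℂ) - θ) - 1‖
      ≤ (2 * s) * (2 * (ε / 4)) := mul_le_mul (hup.trans (by nlinarith))
        ((norm_exp_sub_one_le (hbnd.trans (min_le_right _ _))).trans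
          (mul_le_mul_of_nonneg_left (hbnd.trans (min_le_left _ _)) two_pos.le))
        (norm_nonneg _) (by positivity)
    _ = _ := by ring

/-- A nearly flat polynomial is locally a plane wave with frequency in `[0, 1]`. -/
theorem local_wave {Λ ε : ℝ} (hΛ : 0 ≤ Λ) (hε : 0 < ε) : ∃ η₀ : ℝ, 0 < η₀ ∧
    ∀ (h : ℕ → ℝ) (N : ℕ), 0 < N → ∀ η : ℝ, 0 ≤ η → η ≤ η₀ → Flat h N η →
      ∀ z : ℂ, ‖z‖ = 1 → ∃ t ∈ Set.Icc (0 : ℝ) 1, ∀ l : ℝ, |l| ≤ Λ →
        ‖pol h N (z * exp (I * (l / N : ℝ))) - pol h N z * exp (I * (l * t : ℝ))‖ ≤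
          ε * Real.sqrt N := by
  obtain ⟨η₀, hη₀, H⟩ := local_wave_delay hΛ hε
  refine ⟨η₀, hη₀, fun h N hN η h1 h2 hfl z hz => ?_⟩
  obtain ⟨t, ht, -, hw⟩ := H h N hN η h1 h2 hfl z hz
  exact ⟨t, ht, hw⟩

end Vale.Agent.P110.Window
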